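import Vale.Agent.P058.Defs

/-! The words `W m` and the cell structures comparing `W i` with `W j`. -/

namespace Vale.Agent.P058

/-- A cell: the two letters `x`, `x'` at one position.  `fix p`: `(p, p)`; `con p`: `(p, α p)`;
`new q`: `(0, q)`. -/
inductive Cell where
  | fix (p : ℝ) : Cell
  | con (p : ℝ) : Cell
  | new (q : ℝ) : Cell

namespace Cell

/-- first letter -/
def x : Cell → ℝ
  | fix p => p
  | con p => p
  | new _ => 0

/-- second letter -/
def y (α : ℝ) : Cell → ℝ
  | fix p => p
  | con p => α * p
  | new q => q

/-- first letter, with the sign changed at contracting cells -/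
def x' : Cell → ℝ
  | fix p => p
  | con p => -p
  | new _ => 0

/-- second letter, with the sign changed at new cells -/
def y' (α : ℝ) : Cell → ℝ
  | fix p => p
  | con p => α * p
  | new q => -q

/-- energy of contracting cells -/
def T : Cell → ℝ
  | fix _ => 0
  | con p => p ^ 2
  | new _ => 0

/-- energy of new cells -/
def S : Cell → ℝ
  | fix _ => 0
  | con _ => 0
  | new q => q ^ 2

end Cell

open Cell

/-- the descending word `σ α^(N-1), ..., σ α, σ` -/
def descW (α σ : ℝ) : ℕ → List ℝ
  | 0 => []
  | N + 1 => (σ * α ^ N) :: descW α σ N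

/-- the descending word as contracting cells -/
def descT (α σ : ℝ) : ℕ → List Cell
  | 0 => []
  | N + 1 => con (σ * α ^ N) :: descT α σ N

/-- the descending word as fixed cells -/
def descI (α σ : ℝ) : ℕ → List Cell
  | 0 => []
  | N + 1 => fix (σ * α ^ N) :: descI α σ N

theorem descT_x (α σ : ℝ) (N : ℕ) : (descT α σ N).map x = descW α σ N := by
  induction N with
  | zero => rfl
  | succ N ih => simp [descT, descW, ih, x]

theorem descI_x (α σ : ℝ) (N : ℕ) : (descI α σ N).map x = descW α σ N := by
  induction N with
  | zero => rfl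
  | succ N ih => simp [descI, descW, ih, x]

theorem descI_y (α σ : ℝ) (N : ℕ) : (descI α σ N).map (y α) = descW α σ N := by
  induction N with
  | zero => rfl
  | succ N ih => simp [descI, descW, ih, y]

theorem descT_y (α σ : ℝ) (N : ℕ) :
    (descT α σ N).map (y α) ++ [σ] = (σ * α ^ N) :: descW α σ N := by
  induction N with
  | zero => simp [descT, descW]
  | succ N ih =>
    rw [descT, List.map_cons, List.cons_append, ih, descW]
    congr 1
    simp only [y]
    ring

theorem descT_T (α σ : ℝ) (N : ℕ) :
    ((descT α σ N).map T).sum * (1 - α ^ 2) = σ ^ 2 * (1 - α ^ (2 * N)) := by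
  induction N with
  | zero => simp [descT]
  | succ N ih =>
    rw [descT, List.map_cons, List.sum_cons, add_mul, ih]
    simp only [T]
    ring

theorem descT_S (α σ : ℝ) (N : ℕ) : ((descT α σ N).map S).sum = 0 := by
  induction N with
  | zero => simp [descT]
  | succ N ih => simp [descT, ih, S]

theorem descI_T (α σ : ℝ) (N : ℕ) : ((descI α σ N).map T).sum = 0 := by
  induction N with
  | zero => simp [descI]
  | succ N ih => simp [descI, ih, T]

theorem descI_S (α σ : ℝ) (N : ℕ) : ((descI α σ N).map S).sum = 0 := by
  induction N with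
  | zero => simp [descI]
  | succ N ih => simp [descI, ih, S]

/-- word of one family -/
def famW (α σ : ℝ) (N m : ℕ) : List ℝ := List.replicate m (σ * α ^ N) ++ descW α σ N

/-- cells of one family, from `famW i` to `famW (i + (m+1))`, expensive-shift version -/
def famBig (α σ : ℝ) (N i m : ℕ) : List Cell :=
  List.replicate i (fix (σ * α ^ N)) ++ List.replicate m (new (σ * α ^ N)) ++ descT α σ N
    ++ [new σ]

/-- cells of one family, from `famW i` to `famW (i + (m+1))`, insertion version -/
def famSmall (α σ : ℝ) (N i m : ℕ) : List Cell :=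
  List.replicate i (fix (σ * α ^ N)) ++ List.replicate (m + 1) (new (σ * α ^ N))
    ++ descI α σ N

theorem famBig_y (α σ : ℝ) (N i m : ℕ) :
    (famBig α σ N i m).map (y α) = famW α σ N (i + (m + 1)) := by
  have h := descT_y α σ N
  rw [famBig, famW, List.map_append, List.map_append, List.map_append, List.map_replicate,
    List.map_replicate]
  simp only [List.map_cons, List.map_nil, y]
  rw [List.append_assoc, h, ← List.replicate_add, ← add_assoc, List.replicate_succ',
    List.append_assoc]
  rfl

theorem famSmall_y (α σ : ℝ) (N i m : ℕ) :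
    (famSmall α σ N i m).map (y α) = famW α σ N (i + (m + 1)) := by
  rw [famSmall, famW, List.map_append, List.map_append, List.map_replicate,
    List.map_replicate, descI_y]
  simp only [y]
  rw [← List.replicate_add]

theorem famBig_x (α σ : ℝ) (N i m : ℕ) (hσ : σ ≠ 0) (hα : α ≠ 0) :
    ((famBig α σ N i m).map x).filter (fun z => decide (z ≠ 0)) = famW α σ N i := by
  have h0 : ∀ N, (descW α σ N).filter (fun z => decide (z ≠ 0)) = descW α σ N := by
    intro N
    induction N with
    | zero => rfl
    | succ N ih =>
      rw [descW, List.filter_cons, ih, if_pos]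
      simp [hσ, hα]
  rw [famBig, famW, List.map_append, List.map_append, List.map_append, List.map_replicate,
    List.map_replicate, descT_x]
  simp only [List.map_cons, List.map_nil, x]
  rw [List.filter_append, List.filter_append, List.filter_append, h0]
  simp [hσ, hα]

theorem famSmall_x (α σ : ℝ) (N i m : ℕ) (hσ : σ ≠ 0) (hα : α ≠ 0) :
    ((famSmall α σ N i m).map x).filter (fun z => decide (z ≠ 0)) = famW α σ N i := by
  have h0 : ∀ N, (descW α σ N).filter (fun z => decide (z ≠ 0)) = descW α σ N := by
    intro N
    induction N with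
    | zero => rfl
    | succ N ih =>
      rw [descW, List.filter_cons, ih, if_pos]
      simp [hσ, hα]
  rw [famSmall, famW, List.map_append, List.map_append, List.map_replicate,
    List.map_replicate, descI_x]
  simp only [x]
  rw [List.filter_append, List.filter_append, h0]
  simp [hσ, hα]

theorem famBig_T (α σ : ℝ) (N i m : ℕ) :
    ((famBig α σ N i m).map T).sum * (1 - α ^ 2) = σ ^ 2 * (1 - α ^ (2 * N)) := by
  rw [← descT_T, famBig]
  simp [T]

theorem famBig_S (α σ : ℝ) (N i m : ℕ) :
    ((famBig α σ N i m).map S).sum = m * (σ ^ 2 * α ^ (2 * N)) + σ ^ 2 := by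
  rw [famBig]
  simp only [List.map_append, List.map_replicate, List.sum_append, List.sum_replicate, S,
    descT_S, List.map_cons, List.map_nil, List.sum_cons, List.sum_nil, nsmul_eq_mul]
  ring

theorem famSmall_T (α σ : ℝ) (N i m : ℕ) : ((famSmall α σ N i m).map T).sum = 0 := by
  rw [famSmall]
  simp [T, descI_T]

theorem famSmall_S (α σ : ℝ) (N i m : ℕ) :
    ((famSmall α σ N i m).map S).sum = (m + 1) * (σ ^ 2 * α ^ (2 * N)) := by
  rw [famSmall]
  simp only [List.map_append, List.map_replicate, List.sum_append, List.sum_replicate, S,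
    descI_S, nsmul_eq_mul]
  push_cast
  ring

end Vale.Agent.P058
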