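import Vale.Agent.P058.Defs

/-! The sign lemma: every finite colouring of a high-dimensional space is invariant, on a scaled
copy of a lower-dimensional space, under sign flips of coordinates with letters in a finite
symmetric alphabet. -/

namespace Vale.Agent.P058

/-- One-variable version for the sub-alphabet `±B`. -/
def SignOne (A B : Finset ℝ) (g : ℝ) : Prop :=
  ∀ (κ : Type) [Finite κ], ∃ (ι : Type) (_ : Fintype ι), ∀ c : (ι → ℝ) → κ,
    ∃ F : ℝ → (ι → ℝ), (∀ x y, ∑ i, (F x i - F y i) ^ 2 = g * (x - y) ^ 2) ∧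
      (∀ a ∈ A, ∀ i, F a i ∈ A) ∧ ∀ a ∈ A, (a ∈ B ∨ -a ∈ B) → c (F (-a)) = c (F a)

/-- Many-variable version for the sub-alphabet `±B`. -/
def SignMany (A B : Finset ℝ) (g : ℝ) : Prop :=
  ∀ (κ : Type) [Finite κ] (L : ℕ), ∃ (ι : Type) (_ : Fintype ι), ∀ c : (ι → ℝ) → κ,
    ∃ F : (Fin L → ℝ) → (ι → ℝ), Scaled g F ∧
      (∀ a : Fin L → ℝ, (∀ j, a j ∈ A) → ∀ i, F a i ∈ A) ∧
      ∀ a b : Fin L → ℝ, (∀ j, a j ∈ A) →
        (∀ j, b j = a j ∨ (b j = - a j ∧ (a j ∈ B ∨ - a j ∈ B))) → c (F b) = c (F a)

theorem signMany_of_signOne {A B : Finset ℝ} (hA : ∀ a ∈ A, -a ∈ A) {g : ℝ}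
    (h : SignOne A B g) : SignMany A B g := by
  intro κ _ L
  induction L generalizing κ with
  | zero =>
    refine ⟨Empty, inferInstance, fun c => ⟨fun _ => Empty.elim, ?_, ?_, ?_⟩⟩
    · intro a b
      simp
    · intro a _ i
      exact i.elim
    · intro a b _ _
      rfl
  | succ L ih =>
    -- first block: colour type `A → κ`
    obtain ⟨ι₁, _, h₁⟩ := ih ({x // x ∈ A} → κ)
    -- last block: colour type `(ι₁ → A) → κ`
    obtain ⟨ι₂, _, h₂⟩ := h ((ι₁ → {x // x ∈ A}) → κ)
    refine ⟨ι₁ ⊕ ι₂, inferInstance, fun c => ?_⟩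
    obtain ⟨F₂, hs₂, hm₂, hc₂⟩ := h₂ (fun y x => c (Sum.elim (fun i => (x i : ℝ)) y))
    obtain ⟨F₁, hs₁, hm₁, hc₁⟩ := h₁ (fun x a => c (Sum.elim x (F₂ a)))
    refine ⟨fun a => Sum.elim (F₁ (fun j => a j.castSucc)) (F₂ (a (Fin.last L))), ?_, ?_, ?_⟩
    · intro a b
      rw [Fintype.sum_sum_type, Fin.sum_univ_castSucc, mul_add]
      simp only [Sum.elim_inl, Sum.elim_inr]
      rw [hs₁, hs₂]
    · intro a ha i
      rcases i with i | i
      · exact hm₁ _ (fun j => ha _) i
      · exact hm₂ _ (ha _) i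
    · intro a b ha hab
      have hb : ∀ j, b j ∈ A := by
        intro j
        rcases hab j with hj | ⟨hj, _⟩
        · rw [hj]; exact ha j
        · rw [hj]; exact hA _ (ha j)
      -- change the first block
      have e₁ := congrFun (hc₁ (fun j => a j.castSucc) (fun j => b j.castSucc) (fun j => ha _)
        (fun j => hab _)) ⟨b (Fin.last L), hb _⟩
      -- change the last block
      have e₂ : c (Sum.elim (F₁ (fun j => a j.castSucc)) (F₂ (b (Fin.last L)))) =
          c (Sum.elim (F₁ (fun j => a j.castSucc)) (F₂ (a (Fin.last L)))) := by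
        rcases hab (Fin.last L) with hj | ⟨hj, hB⟩
        · rw [hj]
        · rw [hj]
          have := congrFun (hc₂ _ (ha (Fin.last L)) hB)
            (fun i => ⟨F₁ (fun j => a j.castSucc) i, hm₁ _ (fun j => ha _) i⟩)
          exact this
      exact e₁.trans e₂

theorem signOne_insert {A B : Finset ℝ} (hA : ∀ a ∈ A, -a ∈ A) {g : ℝ} {b : ℝ} (hb : b ∈ A)
    (h : SignMany A B g) : SignOne A (insert b B) (g * 2) := by
  classical
  intro κ _
  obtain ⟨L, hL⟩ : ∃ L : ℕ, L = Nat.card κ + 1 := ⟨_, rfl⟩
  obtain ⟨ι, _, h'⟩ := h κ L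
  refine ⟨ι, inferInstance, fun c => ?_⟩
  obtain ⟨F, hs, hm, hc⟩ := h' c
  -- pigeonhole
  have hpig : ∃ k l : Fin L, k ≠ l ∧ c (F (Function.update (fun _ => b) k (-b))) =
      c (F (Function.update (fun _ => b) l (-b))) := by
    have : Fintype κ := Fintype.ofFinite κ
    have hcard : Fintype.card κ < Fintype.card (Fin L) := by
      rw [Fintype.card_fin, hL, Nat.card_eq_fintype_card]
      omega
    obtain ⟨k, l, hkl, he⟩ := Fintype.exists_ne_map_eq_of_card_lt
      (fun k : Fin L => c (F (Function.update (fun _ => b) k (-b)))) hcard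
    exact ⟨k, l, hkl, he⟩
  obtain ⟨k, l, hkl, hcol⟩ := hpig
  let G : ℝ → (Fin L → ℝ) := fun v j => if j = k then -v else if j = l then v else b
  refine ⟨fun v => F (G v), ?_, ?_, ?_⟩
  · intro x y
    refine (hs (G x) (G y)).trans ?_
    have : ∑ j, (G x j - G y j) ^ 2 = ∑ j : Fin L, ((if j = k then (x - y) ^ 2 else 0) +
        (if j = l then (x - y) ^ 2 else 0)) := by
      refine Finset.sum_congr rfl fun j _ => ?_
      by_cases h1 : j = k
      · have h2 : j ≠ l := by rw [h1]; exact hkl
        simp only [G, h1, hkl, if_true, if_false]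
        ring
      · by_cases h2 : j = l
        · simp only [G, h2, hkl.symm, if_true, if_false]
          ring
        · simp only [G, h1, h2, if_false]
          ring
    rw [this, Finset.sum_add_distrib]
    simp only [Finset.sum_ite_eq', Finset.mem_univ, if_true]
    ring
  · intro a ha i
    refine hm _ (fun j => ?_) i
    simp only [G]
    split_ifs
    · exact hA _ ha
    · exact ha
    · exact hb
  · intro a ha hB
    have hmem : ∀ j, G a j ∈ A := by
      intro j
      simp only [G]
      split_ifs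
      · exact hA _ ha
      · exact ha
      · exact hb
    have hmem' : ∀ j, G (-a) j ∈ A := by
      intro j
      simp only [G]
      split_ifs
      · rw [neg_neg]; exact ha
      · exact hA _ ha
      · exact hb
    have hGb : G b = Function.update (fun _ => b) k (-b) := by
      funext j
      simp only [G, Function.update_apply]
      by_cases h1 : j = k
      · simp [h1]
      · by_cases h2 : j = l
        · simp [h2]
        · simp [h1, h2]
    have hGnb : G (-b) = Function.update (fun _ => b) l (-b) := by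
      funext j
      simp only [G, Function.update_apply]
      by_cases h1 : j = k
      · simp [h1, hkl]
      · by_cases h2 : j = l
        · simp [h2, hkl.symm]
        · simp [h1, h2]
    have key : c (F (G b)) = c (F (G (-b))) := by
      rw [hGb, hGnb]; exact hcol
    have hflip : (a ∈ B ∨ -a ∈ B) → c (F (G (-a))) = c (F (G a)) := by
      intro hB'
      refine hc (G a) (G (-a)) hmem (fun j => ?_)
      simp only [G]
      by_cases h1 : j = k
      · right
        simp only [h1, if_true, neg_neg, true_and]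
        exact hB'.symm
      · by_cases h2 : j = l
        · right
          simp only [h2, hkl.symm, if_true, if_false, true_and]
          exact hB'
        · left
          simp only [h1, h2, if_false]
    rcases hB with hB | hB
    · rcases Finset.mem_insert.1 hB with rfl | hB
      · exact key.symm
      · exact hflip (Or.inl hB)
    · rcases Finset.mem_insert.1 hB with hB | hB
      · have : a = -b := by rw [← hB, neg_neg]
        rw [this, neg_neg]
        exact key
      · exact hflip (Or.inr hB)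

theorem exists_signMany (A : Finset ℝ) (hA : ∀ a ∈ A, -a ∈ A) (B : Finset ℝ) (hB : B ⊆ A) :
    ∃ g : ℝ, 0 < g ∧ SignMany A B g := by
  classical
  induction B using Finset.induction_on with
  | empty =>
    refine ⟨1, one_pos, signMany_of_signOne hA ?_⟩
    intro κ _
    refine ⟨Unit, inferInstance, fun c => ⟨fun x _ => x, ?_, ?_, ?_⟩⟩
    · intro x y
      simp
    · intro a ha _
      exact ha
    · intro a _ h
      simp at h
  | insert b B _ ih =>
    obtain ⟨g, hg, h⟩ := ih (fun x hx => hB (Finset.mem_insert_of_mem hx))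
    exact ⟨g * 2, by positivity,
      signMany_of_signOne hA (signOne_insert hA (hB (Finset.mem_insert_self b B)) h)⟩

/-- The sign lemma. -/
theorem sign_lemma (A : Finset ℝ) (hA : ∀ a ∈ A, -a ∈ A) :
    ∃ g : ℝ, 0 < g ∧ ∀ (κ : Type) [Finite κ] (L : ℕ), ∃ (ι : Type) (_ : Fintype ι),
      ∀ c : (ι → ℝ) → κ, ∃ F : (Fin L → ℝ) → (ι → ℝ), Scaled g F ∧
        ∀ a b : Fin L → ℝ, (∀ j, a j ∈ A) → (∀ j, b j = a j ∨ b j = - a j) →
          c (F a) = c (F b) := by
  obtain ⟨g, hg, h⟩ := exists_signMany A hA A (Finset.Subset.refl A)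
  refine ⟨g, hg, fun κ _ L => ?_⟩
  obtain ⟨ι, hι, h'⟩ := h κ L
  refine ⟨ι, hι, fun c => ?_⟩
  obtain ⟨F, hs, _, hc⟩ := h' c
  refine ⟨F, hs, fun a b ha hab => ?_⟩
  refine (hc a b ha (fun j => ?_)).symm
  rcases hab j with hj | hj
  · exact Or.inl hj
  · exact Or.inr ⟨hj, Or.inl (ha j)⟩

end Vale.Agent.P058
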