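import Vale.Agent.P058.Words
import Vale.Agent.P058.Sign

/-! Assembly: every cyclic kite is Ramsey. -/

namespace Vale.Agent.P058

open Cell

theorem exists_rho (α : ℝ) (h0 : 0 < α) (h1 : α < 1) (R : ℕ) :
    ∃ (N : ℕ) (a : ℝ), a = α ^ (2 * N) ∧ a < 1 ∧ 0 < a ∧ ∀ k, 0 < rho a R k := by
  obtain ⟨n, hn⟩ := exists_pow_lt_of_lt_one (show (0 : ℝ) < 1 / (R + 1) by positivity) h1
  have hle : α ^ (2 * n) ≤ α ^ n := pow_le_pow_of_le_one h0.le h1.le (by omega)
  have ha : α ^ (2 * n) * (R + 1) < 1 := by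
    have : α ^ (2 * n) < 1 / (R + 1) := lt_of_le_of_lt hle hn
    rwa [lt_div_iff₀ (by positivity)] at this
  have hpos : 0 < α ^ (2 * n) := by positivity
  have hR : (0 : ℝ) ≤ R := Nat.cast_nonneg R
  have hlt1 : α ^ (2 * n) < 1 := by nlinarith
  refine ⟨n, α ^ (2 * n), rfl, hlt1, hpos, fun k => ?_⟩
  have h1a : 0 < 1 - α ^ (2 * n) := by linarith
  rw [rho]
  split_ifs
  · positivity
  · have : (R : ℝ) * (α ^ (2 * n) / (1 - α ^ (2 * n))) < 1 := by
      rw [← mul_div_assoc, div_lt_one h1a]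
      nlinarith
    linarith

theorem exists_cells (α : ℝ) (h0 : 0 < α) (h1 : α < 1) (R : ℕ) :
    ∃ (ℓ : ℕ) (W : Fin (R + 2) → List ℝ), ∀ i j : Fin (R + 2), i < j → ∃ Z : Fin ℓ → Cell,
      (List.ofFn (fun k => y α (Z k))).filter (fun z => decide (z ≠ 0)) = W j ∧
      (List.ofFn (fun k => x (Z k))).filter (fun z => decide (z ≠ 0)) = W i ∧
      ∑ k, S (Z k) = 1 ∧ (∑ k, T (Z k)) * (1 - α ^ 2) = 1 := by
  obtain ⟨N, a, ha, ha1, ha0, hρ⟩ := exists_rho α h0 h1 R
  have hα2 : 0 < 1 - α ^ 2 := by nlinarith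
  set P : ℝ := √(a / (1 - α ^ 2)) with hPdef
  have hP2 : P ^ 2 * (1 - α ^ 2) = a := by
    rw [hPdef, Real.sq_sqrt (by positivity)]
    field_simp
  have hP0 : P ≠ 0 := (Real.sqrt_pos.2 (by positivity)).ne'
  refine ⟨∑ m ∈ Finset.range (R + 2), (fullW α a P R N m).length,
    fun m => (fullW α a P R N m).filter (fun z => decide (z ≠ 0)), fun i j hij => ?_⟩
  obtain ⟨m, hm⟩ : ∃ m : ℕ, (j : ℕ) = i + (m + 1) := ⟨(j : ℕ) - i - 1, by
    have : (i : ℕ) < j := hij
    omega⟩
  have hj : (j : ℕ) < R + 2 := j.2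
  have hmR : m ≤ R := by omega
  set l : List Cell := fullZ α a P R N i m with hl
  have hy : l.map (y α) = fullW α a P R N j := by rw [hl, fullZ_y, hm]
  have hx : (l.map x).filter (fun z => decide (z ≠ 0)) = fullW α a P R N i :=
    fullZ_x α a P R N i m h0.ne' hP0 hρ (by omega)
  have hS : (l.map S).sum = 1 := fullZ_S α a P R N i m ha ha1.ne hρ hmR
  have hT : (l.map T).sum * (1 - α ^ 2) = 1 := fullZ_T α a P R N i m ha ha1.ne hP2 hρ hmR
  set ℓ : ℕ := ∑ m ∈ Finset.range (R + 2), (fullW α a P R N m).length with hℓ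
  have hlen : l.length ≤ ℓ := by
    have e : l.length = (fullW α a P R N j).length := by rw [← hy, List.length_map]
    rw [e, hℓ]
    exact Finset.single_le_sum (f := fun m => (fullW α a P R N m).length)
      (fun _ _ => Nat.zero_le _) (Finset.mem_range.2 hj)
  -- pad
  obtain ⟨l', hl'⟩ : ∃ l' : List Cell, l' = l ++ List.replicate (ℓ - l.length) (fix 0) := ⟨_, rfl⟩
  have hlen' : l'.length = ℓ := by
    rw [hl', List.length_append, List.length_replicate]
    omega
  have hfilt : ∀ n : ℕ, (List.replicate n (0 : ℝ)).filter (fun z => decide (z ≠ 0)) = [] := by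
    intro n
    rw [List.filter_replicate_of_neg]
    simp
  have hy' : (l'.map (y α)).filter (fun z => decide (z ≠ 0)) =
      (fullW α a P R N j).filter (fun z => decide (z ≠ 0)) := by
    rw [hl', List.map_append, List.filter_append, hy, List.map_replicate]
    simp only [y]
    rw [hfilt, List.append_nil]
  have hx' : (l'.map x).filter (fun z => decide (z ≠ 0)) =
      (fullW α a P R N i).filter (fun z => decide (z ≠ 0)) := by
    rw [hl', List.map_append, List.filter_append, hx, List.map_replicate]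
    simp only [x]
    rw [hfilt, List.append_nil, ← hx, List.filter_filter]
    simp
  have hS' : (l'.map S).sum = 1 := by
    rw [hl', List.map_append, List.sum_append, hS, List.map_replicate]
    simp [S]
  have hT' : (l'.map T).sum * (1 - α ^ 2) = 1 := by
    rw [hl', List.map_append, List.sum_append, List.map_replicate]
    simp only [T]
    rw [List.sum_replicate, smul_zero, add_zero, hT]
  clear_value ℓ
  subst hlen'
  have key : ∀ {β : Type} (f : Cell → β), List.ofFn (fun k => f (l'.get k)) = l'.map f := by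
    intro β f
    conv_rhs => rw [← List.ofFn_get l']
    rw [List.map_ofFn]
    rfl
  refine ⟨l'.get, ?_, ?_, ?_, ?_⟩
  · rw [key, hy']
  · rw [key, hx']
  · rw [← List.sum_ofFn, key, hS']
  · rw [← List.sum_ofFn, key, hT']

theorem sum_extend {ℓ L : ℕ} (h : Fin ℓ ↪o Fin L) (u v : Fin ℓ → ℝ) :
    ∑ j, (Function.extend h u 0 j - Function.extend h v 0 j) ^ 2 = ∑ k, (u k - v k) ^ 2 := by
  classical
  have e : ∑ k, (u k - v k) ^ 2 = ∑ j ∈ Finset.univ.map h.toEmbedding,
      (Function.extend h u 0 j - Function.extend h v 0 j) ^ 2 := by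
    rw [Finset.sum_map]
    refine Finset.sum_congr rfl fun k _ => ?_
    have h1 := h.injective.extend_apply u 0 k
    have h2 := h.injective.extend_apply v 0 k
    show _ = (Function.extend h u 0 (h k) - Function.extend h v 0 (h k)) ^ 2
    rw [h1, h2]
  rw [e]
  refine (Finset.sum_subset (Finset.subset_univ _) fun j _ hj => ?_).symm
  have hn : ¬ ∃ k, h k = j := by
    rintro ⟨k, hk⟩
    exact hj (Finset.mem_map.2 ⟨k, Finset.mem_univ _, hk⟩)
  rw [Function.extend_apply' _ _ _ hn, Function.extend_apply' _ _ _ hn]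
  simp

end Vale.Agent.P058
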