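import Mathlib

/-! Definitions for P058: finite Ramsey sets, transitive and subtransitive sets, cyclic kites. -/

namespace Vale.Agent.P058

/-- `A` is Ramsey: for every `r ≥ 2` there is a dimension `D ≥ 1` such that every colouring of
`D`-dimensional Euclidean space with `r` colours is constant on some congruent copy of `A`. -/
def IsRamsey {d : ℕ} (A : Set (EuclideanSpace ℝ (Fin d))) : Prop :=
  ∀ r : ℕ, 2 ≤ r → ∃ D : ℕ, 1 ≤ D ∧ ∀ c : EuclideanSpace ℝ (Fin D) → Fin r,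
    ∃ f : A → EuclideanSpace ℝ (Fin D), Isometry f ∧ ∃ k : Fin r, ∀ a : A, c (f a) = k

/-- `X` is transitive: the isometries of the ambient space mapping `X` onto itself act
transitively on `X`. -/
def IsTransitive {n : ℕ} (X : Set (EuclideanSpace ℝ (Fin n))) : Prop :=
  ∀ x ∈ X, ∀ y ∈ X, ∃ g : EuclideanSpace ℝ (Fin n) ≃ᵢ EuclideanSpace ℝ (Fin n),
    g '' X = X ∧ g x = y

/-- `A` is subtransitive: it is congruent to a subset of a finite transitive set. -/
def IsSubtransitive {d : ℕ} (A : Set (EuclideanSpace ℝ (Fin d))) : Prop :=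
  ∃ (n : ℕ) (X : Set (EuclideanSpace ℝ (Fin n))), X.Finite ∧ IsTransitive X ∧
    ∃ f : A → EuclideanSpace ℝ (Fin n), Isometry f ∧ ∀ a : A, f a ∈ X

/-- The vertex set of the cyclic kite with axis `[0, ℓ]` (a diameter of its circumcircle) whose
diagonals meet at `(t ℓ, 0)`. -/
noncomputable def kite (t ℓ : ℝ) : Set (EuclideanSpace ℝ (Fin 2)) :=
  {!₂[0, 0], !₂[ℓ, 0], !₂[t * ℓ, √(t * (1 - t)) * ℓ], !₂[t * ℓ, -(√(t * (1 - t)) * ℓ)]}

/-- `F` multiplies all squared Euclidean distances by `g`. -/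
def Scaled {J ι : Type} [Fintype J] [Fintype ι] (g : ℝ) (F : (J → ℝ) → (ι → ℝ)) : Prop :=
  ∀ a b : J → ℝ, ∑ i, (F a i - F b i) ^ 2 = g * ∑ j, (a j - b j) ^ 2

end Vale.Agent.P058
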