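import Vale.Agent.P058.Defs

/-! Finite hypergraph Ramsey and the words argument. -/

namespace Vale.Agent.P058

open Finset

namespace RamseyAux

theorem pre (κ : Type) (k : ℕ)
    (ih : ∀ N : ℕ, ∃ L : ℕ, ∀ X : Finset ℕ, L ≤ X.card → ∀ χ : Finset ℕ → κ,
      ∃ H ⊆ X, H.card = N ∧ ∃ γ : κ, ∀ s ⊆ H, s.card = k → χ s = γ) :
    ∀ T : ℕ, ∃ L : ℕ, ∀ X : Finset ℕ, L ≤ X.card → ∀ χ : Finset ℕ → κ,
      ∃ Y ⊆ X, Y.card = T ∧ ∃ c : ℕ → κ, ∀ s ⊆ Y, s.card = k + 1 → ∃ x ∈ s, χ s = c x := by
  classical
  intro T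
  induction T with
  | zero =>
    refine ⟨0, fun X _ χ => ⟨∅, Finset.empty_subset _, rfl, fun _ => χ ∅, fun s hs hc => ?_⟩⟩
    rw [Finset.subset_empty.1 hs] at hc
    simp at hc
  | succ T ihT =>
    obtain ⟨L, hL⟩ := ihT
    obtain ⟨L', hL'⟩ := ih L
    refine ⟨L' + 1, fun X hX χ => ?_⟩
    obtain ⟨x, hx⟩ : X.Nonempty := Finset.card_pos.1 (by omega)
    obtain ⟨H, hHX, hHc, γ, hγ⟩ := hL' (X.erase x) (by rw [Finset.card_erase_of_mem hx]; omega)
      (fun t => χ (insert x t))
    obtain ⟨Y, hYH, hYc, c, hc⟩ := hL H hHc.ge χ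
    have hxY : x ∉ Y := fun h => (Finset.mem_erase.1 (hHX (hYH h))).1 rfl
    refine ⟨insert x Y, ?_, by rw [Finset.card_insert_of_notMem hxY, hYc],
      Function.update c x γ, fun s hs hsc => ?_⟩
    · intro y hy
      rcases Finset.mem_insert.1 hy with rfl | hy
      · exact hx
      · exact (Finset.mem_erase.1 (hHX (hYH hy))).2
    · by_cases hxs : x ∈ s
      · refine ⟨x, hxs, ?_⟩
        have h1 : s.erase x ⊆ Y := by
          intro y hy
          rw [Finset.mem_erase] at hy
          rcases Finset.mem_insert.1 (hs hy.2) with h | h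
          · exact absurd h hy.1
          · exact h
        have h2 := hγ (s.erase x) (h1.trans hYH) (by rw [Finset.card_erase_of_mem hxs]; omega)
        simp only [Finset.insert_erase hxs] at h2
        rw [h2, Function.update_self]
      · have h1 : s ⊆ Y := by
          intro y hy
          rcases Finset.mem_insert.1 (hs hy) with h | h
          · exact absurd (h ▸ hy) hxs
          · exact h
        obtain ⟨y, hy, hyc⟩ := hc s h1 hsc
        refine ⟨y, hy, ?_⟩
        have : y ≠ x := fun h => hxs (h ▸ hy)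
        rw [hyc, Function.update_of_ne this]

theorem homogeneous_of_card (κ : Type)
    (R : ∀ k N : ℕ, ∃ L : ℕ, ∀ X : Finset ℕ, L ≤ X.card → ∀ χ : Finset ℕ → κ,
      ∃ H ⊆ X, H.card = N ∧ ∃ γ : κ, ∀ s ⊆ H, s.card = k → χ s = γ) (N : ℕ) :
    ∀ K : ℕ, ∃ L : ℕ, ∀ X : Finset ℕ, L ≤ X.card → ∀ χ : Finset ℕ → κ,
      ∃ H ⊆ X, H.card = N ∧ ∃ γ : ℕ → κ, ∀ s ⊆ H, s.card ≤ K → χ s = γ s.card := by
  classical
  intro K
  induction K with
  | zero =>
    obtain ⟨L, hL⟩ := R 0 N
    refine ⟨L, fun X hX χ => ?_⟩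
    obtain ⟨H, h1, h2, γ, hγ⟩ := hL X hX χ
    exact ⟨H, h1, h2, fun _ => γ, fun s hs hc => hγ s hs (by omega)⟩
  | succ K ih =>
    obtain ⟨L, hL⟩ := ih
    obtain ⟨L', hL'⟩ := R (K + 1) L
    refine ⟨L', fun X hX χ => ?_⟩
    obtain ⟨H, h1, h2, γ, hγ⟩ := hL' X hX χ
    obtain ⟨H', h1', h2', γ', hγ'⟩ := hL H h2.ge χ
    refine ⟨H', h1'.trans h1, h2', Function.update γ' (K + 1) γ, fun s hs hc => ?_⟩
    rcases Nat.lt_or_ge K s.card with h | h
    · have h3 : s.card = K + 1 := by omega
      rw [h3, Function.update_self]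
      exact hγ s (hs.trans h1') h3
    · rw [Function.update_of_ne (by omega)]
      exact hγ' s hs h

theorem filter_getD (p : ℝ → Bool) : ∀ (l : List ℝ) (j : ℕ) (hj : j < l.length),
    p l[j] = true → (l.filter p).getD ((l.take j).countP p) 0 = l[j] := by
  intro l
  induction l with
  | nil => intro j hj; simp at hj
  | cons a l ih =>
    intro j hj hp
    cases j with
    | zero =>
      simp only [List.getElem_cons_zero] at hp ⊢
      simp [hp]
    | succ j =>
      simp only [List.getElem_cons_succ] at hp ⊢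
      have := ih j (by simpa using hj) hp
      rw [List.take_succ_cons, List.countP_cons, List.filter_cons]
      by_cases ha : p a = true
      · simp only [ha, if_true, List.getD_cons_succ]
        exact this
      · simp only [ha]
        simpa using this

theorem countP_take {ℓ : ℕ} (y : Fin ℓ → ℝ) (p : ℝ → Bool) : ∀ n ≤ ℓ,
    ((List.ofFn y).take n).countP p =
      (univ.filter (fun j : Fin ℓ => (j : ℕ) < n ∧ p (y j) = true)).card := by
  intro n
  induction n with
  | zero => intro _; simp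
  | succ n ih =>
    intro hn
    have hlen : n < (List.ofFn y).length := by rw [List.length_ofFn]; omega
    rw [← List.take_append_getElem hlen, List.countP_append, ih (by omega)]
    have hy : (List.ofFn y)[n] = y ⟨n, by omega⟩ := by simp
    rw [hy]
    have hsplit : univ.filter (fun j : Fin ℓ => (j : ℕ) < n + 1 ∧ p (y j) = true) =
        univ.filter (fun j : Fin ℓ => (j : ℕ) < n ∧ p (y j) = true) ∪
          (if p (y ⟨n, by omega⟩) = true then {⟨n, by omega⟩} else ∅) := by
      ext j
      simp only [Finset.mem_filter, Finset.mem_univ, true_and, Finset.mem_union]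
      constructor
      · rintro ⟨h1, h2⟩
        rcases Nat.lt_or_ge (j : ℕ) n with h | h
        · exact Or.inl ⟨h, h2⟩
        · have h3 : j = ⟨n, by omega⟩ := Fin.ext (by simp only; omega)
          right
          rw [h3] at h2 ⊢
          rw [if_pos h2]
          exact Finset.mem_singleton_self _
      · rintro (⟨h1, h2⟩ | h)
        · exact ⟨by omega, h2⟩
        · split_ifs at h with h2
          · rw [Finset.mem_singleton] at h
            subst h
            exact ⟨by simp, h2⟩
          · simp at h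
    rw [hsplit, Finset.card_union_of_disjoint]
    · congr 1
      split_ifs with h <;> simp [h]
    · rw [Finset.disjoint_left]
      intro j hj hj'
      simp only [Finset.mem_filter, Finset.mem_univ, true_and] at hj
      split_ifs at hj' with h2
      · rw [Finset.mem_singleton] at hj'
        subst hj'
        simp at hj
      · simp at hj'

/-- the word `w` placed increasingly on the set `s`. -/
noncomputable def place (w : List ℝ) (s : Finset ℕ) (L : ℕ) : Fin L → ℝ := fun i =>
  if (i : ℕ) ∈ s then w.getD ((s.filter (fun t => t < (i : ℕ))).card) 0 else 0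

end RamseyAux

open RamseyAux

/-- [R1] finite hypergraph Ramsey. -/
theorem finite_ramsey (κ : Type) [Finite κ] (k N : ℕ) : ∃ L : ℕ, ∀ X : Finset ℕ, L ≤ X.card →
    ∀ χ : Finset ℕ → κ, ∃ H ⊆ X, H.card = N ∧ ∃ γ : κ, ∀ s ⊆ H, s.card = k → χ s = γ := by
  classical
  have := Fintype.ofFinite κ
  induction k generalizing N with
  | zero =>
    refine ⟨N, fun X hX χ => ?_⟩
    obtain ⟨H, h1, h2⟩ := Finset.exists_subset_card_eq hX
    refine ⟨H, h1, h2, χ ∅, fun s _ hs => ?_⟩
    rw [Finset.card_eq_zero.1 hs]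
  | succ k ih =>
    obtain ⟨L, hL⟩ := pre κ k ih (Fintype.card κ * N)
    refine ⟨L, fun X hX χ => ?_⟩
    obtain ⟨Y, h1, h2, c, hc⟩ := hL X hX χ
    obtain ⟨γ, -, hγ⟩ := Finset.exists_le_card_fiber_of_mul_le_card_of_maps_to
      (s := Y) (t := (Finset.univ : Finset κ)) (f := c) (n := N) (fun _ _ => Finset.mem_univ _)
      ⟨χ ∅, Finset.mem_univ _⟩ (by rw [h2, Finset.card_univ])
    obtain ⟨H, h3, h4⟩ := Finset.exists_subset_card_eq hγ
    refine ⟨H, (h3.trans (Finset.filter_subset _ _)).trans h1, h4, γ, fun s hs hsc => ?_⟩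
    obtain ⟨x, hx, hxc⟩ := hc s ((hs.trans h3).trans (Finset.filter_subset _ _)) hsc
    rw [hxc]
    exact (Finset.mem_filter.1 (h3 (hs hx))).2

/-- [R2] simultaneous version -/
theorem exists_homogeneous (κ : Type) [Finite κ] (K N : ℕ) : ∃ L : ℕ, ∀ χ : Finset ℕ → κ,
    ∃ H ⊆ Finset.range L, H.card = N ∧ ∃ γ : ℕ → κ, ∀ s ⊆ H, s.card ≤ K → χ s = γ s.card := by
  obtain ⟨L, hL⟩ := homogeneous_of_card κ (finite_ramsey κ) N K
  exact ⟨L, fun χ => hL (Finset.range L) (by rw [Finset.card_range]) χ⟩

/-- [R3] words -/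
theorem exists_words (κ μ : Type) [Finite κ] [Finite μ] (W : μ → List ℝ) (ℓ : ℕ) :
    ∃ L : ℕ, ∀ c : (Fin L → ℝ) → κ, ∃ (h : Fin ℓ ↪o Fin L) (γ : μ → κ),
      ∀ (m : μ) (y : Fin ℓ → ℝ), (List.ofFn y).filter (fun z => decide (z ≠ 0)) = W m →
        c (Function.extend h y 0) = γ m := by
  classical
  have := Fintype.ofFinite μ
  obtain ⟨K, hK⟩ : ∃ K : ℕ, ∀ m, (W m).length ≤ K :=
    ⟨Finset.univ.sup fun m => (W m).length, fun m => Finset.le_sup (f := fun m => (W m).length)
      (Finset.mem_univ m)⟩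
  obtain ⟨L, hL⟩ := exists_homogeneous (μ → κ) K ℓ
  refine ⟨L, fun c => ?_⟩
  obtain ⟨H, hHL, hHc, γ, hγ⟩ := hL (fun s m => c (place (W m) s L))
  -- the increasing enumeration of `H`
  set e : Fin ℓ ↪o ℕ := H.orderEmbOfFin hHc with he
  have heL : ∀ j, e j < L := fun j =>
    Finset.mem_range.1 (hHL (Finset.orderEmbOfFin_mem H hHc j))
  have heH : ∀ j, e j ∈ H := fun j => Finset.orderEmbOfFin_mem H hHc j
  let h : Fin ℓ ↪o Fin L := OrderEmbedding.ofStrictMono (fun j => ⟨e j, heL j⟩)
    (fun a b hab => by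
      rw [Fin.lt_def]
      exact e.strictMono hab)
  have hh : ∀ j, ((h j : Fin L) : ℕ) = e j := fun j => rfl
  refine ⟨h, fun m => γ (W m).length m, fun m y hy => ?_⟩
  set p : ℝ → Bool := fun z => decide (z ≠ 0) with hp
  have hpt : ∀ z, p z = true ↔ z ≠ 0 := fun z => by simp [hp]
  -- the support
  set S : Finset (Fin ℓ) := univ.filter (fun j => y j ≠ 0) with hS
  set s : Finset ℕ := S.image e with hs
  have hmem : ∀ j, e j ∈ s ↔ y j ≠ 0 := by
    intro j
    rw [hs, Finset.mem_image]
    constructor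
    · rintro ⟨j', hj', hjj⟩
      rw [e.injective hjj] at hj'
      exact (Finset.mem_filter.1 hj').2
    · intro hj
      exact ⟨j, Finset.mem_filter.2 ⟨Finset.mem_univ _, hj⟩, rfl⟩
  have hcardS : S.card = (W m).length := by
    rw [← hy, ← List.countP_eq_length_filter]
    have h1 := countP_take y p ℓ le_rfl
    rw [List.take_of_length_le (by rw [List.length_ofFn])] at h1
    rw [h1, hS]
    congr 1
    ext j
    simp [hpt]
  have hcards : s.card = (W m).length := by
    rw [hs, Finset.card_image_of_injective _ e.injective, hcardS]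
  have hsH : s ⊆ H := by
    intro t ht
    rw [hs, Finset.mem_image] at ht
    obtain ⟨j, -, rfl⟩ := ht
    exact heH j
  have key : Function.extend h y 0 = place (W m) s L := by
    funext i
    by_cases hi : ∃ j, h j = i
    · obtain ⟨j, rfl⟩ := hi
      rw [h.injective.extend_apply, place, hh]
      by_cases hyj : y j = 0
      · rw [if_neg (fun hc => (hmem j).1 hc hyj), hyj]
      · rw [if_pos ((hmem j).2 hyj)]
        have h1 : (s.filter (fun t => t < e j)).card =
            ((List.ofFn y).take (j : ℕ)).countP p := by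
          rw [countP_take y p j j.2.le]
          rw [hs, Finset.filter_image, Finset.card_image_of_injective _ e.injective, hS,
            Finset.filter_filter]
          congr 1
          ext j'
          simp only [Finset.mem_filter, Finset.mem_univ, true_and, hpt]
          rw [e.lt_iff_lt, Fin.lt_def, and_comm]
        have hjl : (j : ℕ) < (List.ofFn y).length := by rw [List.length_ofFn]; exact j.2
        have hyl : (List.ofFn y)[(j : ℕ)] = y j := by simp
        have h2 := filter_getD p (List.ofFn y) j hjl (by rw [hyl, hpt]; exact hyj)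
        rw [h1, ← hy, h2, hyl]
    · rw [Function.extend_apply' _ _ _ (fun ⟨j, hj⟩ => hi ⟨j, hj⟩), place, if_neg]
      · rfl
      · intro hc
        rw [hs, Finset.mem_image] at hc
        obtain ⟨j, -, hj⟩ := hc
        exact hi ⟨j, Fin.ext (by rw [hh]; exact hj)⟩
  have h3 := congrFun (hγ s hsH (by rw [hcards]; exact hK m)) m
  rw [hcards] at h3
  rw [key]
  exact h3

end Vale.Agent.P058
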