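import Vale.Agent.P058.Core
import Vale.Agent.P058.Ramsey

/-! Every cyclic kite is Ramsey. -/

namespace Vale.Agent.P058

open Cell

/-- squared distance -/
noncomputable def sqd {ι : Type} [Fintype ι] (a b : ι → ℝ) : ℝ := ∑ i, (a i - b i) ^ 2

theorem kite_core (α : ℝ) (h0 : 0 < α) (h1 : α < 1) (R : ℕ) (lam : ℝ) (hlam : 0 < lam) :
    ∃ (ι : Type) (_ : Fintype ι), ∀ c : (ι → ℝ) → Fin (R + 1),
      ∃ y1 y2 y3 y4 : ι → ℝ, c y1 = c y2 ∧ c y3 = c y4 ∧ c y1 = c y3 ∧
        sqd y1 y2 = 4 * lam / (1 - α ^ 2) ∧ sqd y3 y4 = 4 * lam ∧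
        sqd y1 y3 = 2 * lam / (1 + α) ∧ sqd y1 y4 = 2 * lam / (1 + α) ∧
        sqd y2 y3 = 2 * lam / (1 - α) ∧ sqd y2 y4 = 2 * lam / (1 - α) := by
  classical
  obtain ⟨ℓ, W, hW⟩ := exists_cells α h0 h1 R
  -- the alphabet
  let A : Finset ℝ := insert 0 (Finset.univ.biUnion fun m : Fin (R + 2) =>
    (W m).toFinset ∪ (W m).toFinset.image (fun z => -z))
  have hA0 : (0 : ℝ) ∈ A := Finset.mem_insert_self _ _
  have hAW : ∀ m, ∀ z ∈ W m, z ∈ A := by
    intro m z hz
    refine Finset.mem_insert_of_mem (Finset.mem_biUnion.2 ⟨m, Finset.mem_univ _, ?_⟩)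
    exact Finset.mem_union_left _ (List.mem_toFinset.2 hz)
  have hAneg : ∀ z ∈ A, -z ∈ A := by
    intro z hz
    rcases Finset.mem_insert.1 hz with rfl | hz
    · rw [neg_zero]; exact hA0
    · obtain ⟨m, _, hm⟩ := Finset.mem_biUnion.1 hz
      refine Finset.mem_insert_of_mem (Finset.mem_biUnion.2 ⟨m, Finset.mem_univ _, ?_⟩)
      rcases Finset.mem_union.1 hm with hm | hm
      · exact Finset.mem_union_right _ (Finset.mem_image.2 ⟨z, hm, rfl⟩)
      · obtain ⟨w, hw, rfl⟩ := Finset.mem_image.1 hm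
        rw [neg_neg]
        exact Finset.mem_union_left _ hw
  obtain ⟨g, hg, hsign⟩ := sign_lemma A hAneg
  obtain ⟨L, hL⟩ := exists_words (Fin (R + 1)) (Fin (R + 2)) W ℓ
  obtain ⟨ι, hι, hS⟩ := hsign (Fin (R + 1)) L
  refine ⟨ι, hι, fun c => ?_⟩
  obtain ⟨F, hF, hinv⟩ := hS (fun z => c (√(lam / g) • z))
  obtain ⟨h, γ, hγ⟩ := hL (fun a => c (√(lam / g) • F a))
  -- pigeonhole
  have hpig : ∃ i j : Fin (R + 2), i < j ∧ γ i = γ j := by
    obtain ⟨i, j, hij, he⟩ := Fintype.exists_ne_map_eq_of_card_lt γ (by simp)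
    rcases lt_or_gt_of_ne hij with hlt | hlt
    · exact ⟨i, j, hlt, he⟩
    · exact ⟨j, i, hlt, he.symm⟩
  obtain ⟨i, j, hij, hcol⟩ := hpig
  obtain ⟨Z, hZy, hZx, hZS, hZT⟩ := hW i j hij
  have hα2 : 0 < 1 - α ^ 2 := by nlinarith
  have hT : ∑ k, T (Z k) = 1 / (1 - α ^ 2) := by
    rw [eq_div_iff hα2.ne', hZT]
  let e : (Fin ℓ → ℝ) → (Fin L → ℝ) := fun u => Function.extend h u 0
  let f : (Fin ℓ → ℝ) → (ι → ℝ) := fun u => √(lam / g) • F (e u)
  have hsqd : ∀ u v : Fin ℓ → ℝ, sqd (f u) (f v) = lam * ∑ k, (u k - v k) ^ 2 := by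
    intro u v
    have e1 : ∀ i, (f u i - f v i) ^ 2 = (lam / g) * (F (e u) i - F (e v) i) ^ 2 := by
      intro i
      have hs : √(lam / g) ^ 2 = lam / g := Real.sq_sqrt (by positivity)
      simp only [f, Pi.smul_apply, smul_eq_mul]
      rw [← mul_sub, mul_pow, hs]
    rw [sqd, Finset.sum_congr rfl (fun i _ => e1 i), ← Finset.mul_sum, hF (e u) (e v),
      sum_extend h u v]
    field_simp
  -- alphabet membership
  have hmem : ∀ (m : Fin (R + 2)) (u : Fin ℓ → ℝ),
      (List.ofFn u).filter (fun z => decide (z ≠ 0)) = W m → ∀ j, e u j ∈ A := by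
    intro m u hu j
    by_cases hj : ∃ k, h k = j
    · obtain ⟨k, rfl⟩ := hj
      show Function.extend h u 0 (h k) ∈ A
      rw [h.injective.extend_apply]
      by_cases hk : u k = 0
      · rw [hk]; exact hA0
      · refine hAW m _ ?_
        rw [← hu, List.mem_filter]
        exact ⟨List.mem_ofFn' u (u k) |>.2 ⟨k, rfl⟩, by simpa using hk⟩
    · show Function.extend h u 0 j ∈ A
      rw [Function.extend_apply' _ _ _ hj]
      exact hA0
  have hflip : ∀ (u v : Fin ℓ → ℝ), (∀ k, v k = u k ∨ v k = - u k) →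
      ∀ j, e v j = e u j ∨ e v j = - e u j := by
    intro u v huv j
    by_cases hj : ∃ k, h k = j
    · obtain ⟨k, rfl⟩ := hj
      show Function.extend h v 0 (h k) = Function.extend h u 0 (h k) ∨
        Function.extend h v 0 (h k) = - Function.extend h u 0 (h k)
      rw [h.injective.extend_apply, h.injective.extend_apply]
      exact huv k
    · left
      show Function.extend h v 0 j = Function.extend h u 0 j
      rw [Function.extend_apply' _ _ _ hj, Function.extend_apply' _ _ _ hj]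
  refine ⟨f (fun k => x (Z k)), f (fun k => x' (Z k)), f (fun k => y α (Z k)),
    f (fun k => y' α (Z k)), ?_, ?_, ?_, ?_, ?_, ?_, ?_, ?_, ?_⟩
  · refine hinv _ _ (hmem i _ hZx) (hflip _ _ fun k => ?_)
    cases Z k with
    | fix p => left; rfl
    | con p => right; rfl
    | new q => left; rfl
  · refine hinv _ _ (hmem j _ hZy) (hflip _ _ fun k => ?_)
    cases Z k with
    | fix p => left; rfl
    | con p => left; rfl
    | new q => right; rfl
  · exact (hγ i _ hZx).trans (hcol.trans (hγ j _ hZy).symm)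
  · rw [hsqd]
    have : ∀ k, (x (Z k) - x' (Z k)) ^ 2 = 4 * T (Z k) := by
      intro k
      cases Z k <;> simp only [x, x', T] <;> ring
    rw [Finset.sum_congr rfl fun k _ => this k, ← Finset.mul_sum, hT]
    ring
  · rw [hsqd]
    have : ∀ k, (y α (Z k) - y' α (Z k)) ^ 2 = 4 * S (Z k) := by
      intro k
      cases Z k <;> simp only [y, y', S] <;> ring
    rw [Finset.sum_congr rfl fun k _ => this k, ← Finset.mul_sum, hZS]
    ring
  · rw [hsqd]
    have : ∀ k, (x (Z k) - y α (Z k)) ^ 2 = S (Z k) + (1 - α) ^ 2 * T (Z k) := by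
      intro k
      cases Z k <;> simp only [x, y, S, T] <;> ring
    rw [Finset.sum_congr rfl fun k _ => this k, Finset.sum_add_distrib, ← Finset.mul_sum, hZS, hT]
    have h2 : 1 + α ≠ 0 := by positivity
    field_simp
    ring
  · rw [hsqd]
    have : ∀ k, (x (Z k) - y' α (Z k)) ^ 2 = S (Z k) + (1 - α) ^ 2 * T (Z k) := by
      intro k
      cases Z k <;> simp only [x, y', S, T] <;> ring
    rw [Finset.sum_congr rfl fun k _ => this k, Finset.sum_add_distrib, ← Finset.mul_sum, hZS, hT]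
    have h2 : 1 + α ≠ 0 := by positivity
    field_simp
    ring
  · rw [hsqd]
    have : ∀ k, (x' (Z k) - y α (Z k)) ^ 2 = S (Z k) + (1 + α) ^ 2 * T (Z k) := by
      intro k
      cases Z k <;> simp only [x', y, S, T] <;> ring
    rw [Finset.sum_congr rfl fun k _ => this k, Finset.sum_add_distrib, ← Finset.mul_sum, hZS, hT]
    have h2 : 1 - α ≠ 0 := by linarith
    field_simp
    ring
  · rw [hsqd]
    have : ∀ k, (x' (Z k) - y' α (Z k)) ^ 2 = S (Z k) + (1 + α) ^ 2 * T (Z k) := by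
      intro k
      cases Z k <;> simp only [x', y', S, T] <;> ring
    rw [Finset.sum_congr rfl fun k _ => this k, Finset.sum_add_distrib, ← Finset.mul_sum, hZS, hT]
    have h2 : 1 - α ≠ 0 := by linarith
    field_simp
    ring

end Vale.Agent.P058
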