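import Vale.Agent.P058.Kite

/-! Every cyclic kite is Ramsey: final form. -/

namespace Vale.Agent.P058

theorem isRamsey_range {d : ℕ} {J : Type} (p : J → EuclideanSpace ℝ (Fin d))
    (h : ∀ R : ℕ, ∃ (ι : Type) (_ : Fintype ι), ∀ c : (ι → ℝ) → Fin (R + 1),
      ∃ y : J → (ι → ℝ), (∀ k l, c (y k) = c (y l)) ∧
        ∀ k l, sqd (y k) (y l) = dist (p k) (p l) ^ 2) :
    IsRamsey (Set.range p) := by
  classical
  intro r hr
  obtain ⟨R, rfl⟩ : ∃ R, r = R + 1 := ⟨r - 1, by omega⟩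
  obtain ⟨ι, hι, hc⟩ := h R
  let E : (ι → ℝ) → EuclideanSpace ℝ (Fin (Fintype.card ι + 1)) := fun z =>
    WithLp.toLp 2 (fun k => Fin.lastCases (motive := fun _ => ℝ) 0
      (fun k => z ((Fintype.equivFin ι).symm k)) k)
  have hE : ∀ u v, dist (E u) (E v) ^ 2 = sqd u v := by
    intro u v
    rw [EuclideanSpace.dist_sq_eq, Fin.sum_univ_castSucc, sqd]
    simp only [E, Fin.lastCases_castSucc, Fin.lastCases_last, dist_self, Real.dist_eq, sq_abs]
    rw [Equiv.sum_comp (Fintype.equivFin ι).symm (fun i => (u i - v i) ^ 2)]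
    ring
  refine ⟨Fintype.card ι + 1, by omega, fun c => ?_⟩
  obtain ⟨y, hy, hd⟩ := hc (fun z => c (E z))
  by_cases hJ : Nonempty J
  · obtain ⟨k0⟩ := hJ
    have hsurj : ∀ a : Set.range p, ∃ k, p k = a := fun a => a.2
    choose s hs using hsurj
    refine ⟨fun a => E (y (s a)), ?_, c (E (y k0)), fun a => hy _ _⟩
    refine Isometry.of_dist_eq fun a b => ?_
    have e1 : dist (E (y (s a))) (E (y (s b))) ^ 2 = dist a b ^ 2 := by
      rw [hE, hd, hs, hs]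
      rfl
    exact (pow_left_inj₀ dist_nonneg dist_nonneg two_ne_zero).1 e1
  · have hemp : ∀ a : Set.range p, False := by
      rintro ⟨_, k, _⟩
      exact hJ ⟨k⟩
    exact ⟨fun a => (hemp a).elim, fun a => (hemp a).elim, 0, fun a => (hemp a).elim⟩

/-- The four vertices of the kite. -/
noncomputable def kitePt (t ℓ : ℝ) : Fin 4 → EuclideanSpace ℝ (Fin 2) :=
  ![!₂[0, 0], !₂[ℓ, 0], !₂[t * ℓ, √(t * (1 - t)) * ℓ], !₂[t * ℓ, -(√(t * (1 - t)) * ℓ)]]

theorem range_kitePt (t ℓ : ℝ) : Set.range (kitePt t ℓ) = kite t ℓ := by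
  ext z
  simp only [kitePt, kite, Set.mem_range, Set.mem_insert_iff, Set.mem_singleton_iff]
  constructor
  · rintro ⟨k, rfl⟩
    fin_cases k <;> simp
  · rintro (rfl | rfl | rfl | rfl)
    · exact ⟨0, rfl⟩
    · exact ⟨1, rfl⟩
    · exact ⟨2, rfl⟩
    · exact ⟨3, rfl⟩

theorem dist_pt (a b c d : ℝ) :
    dist (!₂[a, b] : EuclideanSpace ℝ (Fin 2)) !₂[c, d] ^ 2 = (a - c) ^ 2 + (b - d) ^ 2 := by
  rw [EuclideanSpace.dist_sq_eq, Fin.sum_univ_two]
  simp [Real.dist_eq]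

theorem sqd_comm {ι : Type} [Fintype ι] (a b : ι → ℝ) : sqd a b = sqd b a := by
  rw [sqd, sqd]
  exact Finset.sum_congr rfl fun i _ => by ring

theorem sqd_self {ι : Type} [Fintype ι] (a : ι → ℝ) : sqd a a = 0 := by
  rw [sqd]
  simp

/-- Four monochromatic points with the kite's distances suffice. -/
theorem kite_isRamsey_of (t ℓ : ℝ) (ht0 : 0 < t) (ht1 : t < 1)
    (h : ∀ R : ℕ, ∃ (ι : Type) (_ : Fintype ι), ∀ c : (ι → ℝ) → Fin (R + 1),
      ∃ y1 y2 y3 y4 : ι → ℝ, c y1 = c y2 ∧ c y3 = c y4 ∧ c y1 = c y3 ∧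
        sqd y1 y2 = ℓ ^ 2 ∧ sqd y3 y4 = 4 * t * (1 - t) * ℓ ^ 2 ∧
        sqd y1 y3 = t * ℓ ^ 2 ∧ sqd y1 y4 = t * ℓ ^ 2 ∧
        sqd y2 y3 = (1 - t) * ℓ ^ 2 ∧ sqd y2 y4 = (1 - t) * ℓ ^ 2) :
    IsRamsey (kite t ℓ) := by
  rw [← range_kitePt]
  refine isRamsey_range _ fun R => ?_
  obtain ⟨ι, hι, hc⟩ := h R
  refine ⟨ι, hι, fun c => ?_⟩
  obtain ⟨y1, y2, y3, y4, c12, c34, c13, d12, d34, d13, d14, d23, d24⟩ := hc c
  have hs : √(t * (1 - t)) ^ 2 = t * (1 - t) :=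
    Real.sq_sqrt (mul_nonneg ht0.le (sub_nonneg.2 ht1.le))
  have e12 : dist (kitePt t ℓ 0) (kitePt t ℓ 1) ^ 2 = ℓ ^ 2 := by
    simp only [kitePt, Matrix.cons_val]
    rw [dist_pt]
    ring
  have e34 : dist (kitePt t ℓ 2) (kitePt t ℓ 3) ^ 2 = 4 * t * (1 - t) * ℓ ^ 2 := by
    simp only [kitePt, Matrix.cons_val]
    rw [dist_pt]
    linear_combination 4 * ℓ ^ 2 * hs
  have e13 : dist (kitePt t ℓ 0) (kitePt t ℓ 2) ^ 2 = t * ℓ ^ 2 := by
    simp only [kitePt, Matrix.cons_val]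
    rw [dist_pt]
    linear_combination ℓ ^ 2 * hs
  have e14 : dist (kitePt t ℓ 0) (kitePt t ℓ 3) ^ 2 = t * ℓ ^ 2 := by
    simp only [kitePt, Matrix.cons_val]
    rw [dist_pt]
    linear_combination ℓ ^ 2 * hs
  have e23 : dist (kitePt t ℓ 1) (kitePt t ℓ 2) ^ 2 = (1 - t) * ℓ ^ 2 := by
    simp only [kitePt, Matrix.cons_val]
    rw [dist_pt]
    linear_combination ℓ ^ 2 * hs
  have e24 : dist (kitePt t ℓ 1) (kitePt t ℓ 3) ^ 2 = (1 - t) * ℓ ^ 2 := by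
    simp only [kitePt, Matrix.cons_val]
    rw [dist_pt]
    linear_combination ℓ ^ 2 * hs
  refine ⟨![y1, y2, y3, y4], ?_, ?_⟩
  · have : ∀ k, c ((![y1, y2, y3, y4] : Fin 4 → (ι → ℝ)) k) = c y1 := by
      intro k
      fin_cases k
      · rfl
      · exact c12.symm
      · exact c13.symm
      · exact (c13.trans c34).symm
    intro k l
    rw [this k, this l]
  · intro k l
    fin_cases k <;> fin_cases l <;>
      simp only [Fin.zero_eta, Fin.mk_one, Fin.reduceFinMk, Matrix.cons_val, sqd_self, dist_self]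
    all_goals first
      | rw [d12, e12]
      | rw [d13, e13]
      | rw [d14, e14]
      | rw [d23, e23]
      | rw [d24, e24]
      | rw [d34, e34]
      | rw [sqd_comm, d12, dist_comm, e12]
      | rw [sqd_comm, d13, dist_comm, e13]
      | rw [sqd_comm, d14, dist_comm, e14]
      | rw [sqd_comm, d23, dist_comm, e23]
      | rw [sqd_comm, d24, dist_comm, e24]
      | rw [sqd_comm, d34, dist_comm, e34]
      | norm_num

/-- Theorem A: every cyclic kite is Ramsey. -/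
theorem kite_isRamsey (t ℓ : ℝ) (ht0 : 0 < t) (ht1 : t < 1) (hℓ : 0 < ℓ) :
    IsRamsey (kite t ℓ) := by
  refine kite_isRamsey_of t ℓ ht0 ht1 fun R => ?_
  have htt : 0 < t * (1 - t) := mul_pos ht0 (sub_pos.2 ht1)
  rcases lt_trichotomy t (1 / 2) with ht | ht | ht
  · obtain ⟨ι, hι, hc⟩ := kite_core (1 - 2 * t) (by linarith) (by linarith) R
      (t * (1 - t) * ℓ ^ 2) (by positivity)
    refine ⟨ι, hι, fun c => ?_⟩
    obtain ⟨y1, y2, y3, y4, c12, c34, c13, d12, d34, d13, d14, d23, d24⟩ := hc c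
    have n1 : 1 - (1 - 2 * t) ^ 2 ≠ 0 := by nlinarith
    have n2 : 1 + (1 - 2 * t) ≠ 0 := by linarith
    have n3 : 1 - (1 - 2 * t) ≠ 0 := by linarith
    refine ⟨y1, y2, y3, y4, c12, c34, c13, ?_, ?_, ?_, ?_, ?_, ?_⟩
    · rw [d12, div_eq_iff n1]; ring
    · rw [d34]; ring
    · rw [d13, div_eq_iff n2]; ring
    · rw [d14, div_eq_iff n2]; ring
    · rw [d23, div_eq_iff n3]; ring
    · rw [d24, div_eq_iff n3]; ring
  · subst ht
    obtain ⟨g, hg, hsign⟩ := sign_lemma {1, -1} (by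
      intro a ha
      rcases Finset.mem_insert.1 ha with rfl | ha
      · simp
      · rw [Finset.mem_singleton] at ha
        subst ha
        simp)
    obtain ⟨ι, hι, hS⟩ := hsign (Fin (R + 1)) 2
    refine ⟨ι, hι, fun c => ?_⟩
    obtain ⟨F, hF, hinv⟩ := hS (fun z => c ((ℓ / √(8 * g)) • z))
    have hsq : (ℓ / √(8 * g)) ^ 2 = ℓ ^ 2 / (8 * g) := by
      rw [div_pow, Real.sq_sqrt (by positivity)]
    have hsqd : ∀ u v : Fin 2 → ℝ, sqd ((ℓ / √(8 * g)) • F u) ((ℓ / √(8 * g)) • F v) =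
        ℓ ^ 2 / 8 * ((u 0 - v 0) ^ 2 + (u 1 - v 1) ^ 2) := by
      intro u v
      have e1 : ∀ i, (((ℓ / √(8 * g)) • F u) i - ((ℓ / √(8 * g)) • F v) i) ^ 2 =
          (ℓ ^ 2 / (8 * g)) * (F u i - F v i) ^ 2 := by
        intro i
        simp only [Pi.smul_apply, smul_eq_mul]
        rw [← mul_sub, mul_pow, hsq]
      rw [sqd, Finset.sum_congr rfl (fun i _ => e1 i), ← Finset.mul_sum, hF u v,
        Fin.sum_univ_two]
      field_simp
    have hmem : ∀ a b : ℝ, (a = 1 ∨ a = -1) → (b = 1 ∨ b = -1) →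
        ∀ j, (![a, b] : Fin 2 → ℝ) j ∈ ({1, -1} : Finset ℝ) := by
      intro a b ha hb j
      fin_cases j
      · simpa using ha
      · simpa using hb
    have hcol : ∀ a b : ℝ, (a = 1 ∨ a = -1) → (b = 1 ∨ b = -1) →
        c ((ℓ / √(8 * g)) • F ![1, 1]) = c ((ℓ / √(8 * g)) • F ![a, b]) := by
      intro a b ha hb
      refine hinv ![1, 1] ![a, b] (hmem 1 1 (Or.inl rfl) (Or.inl rfl)) fun j => ?_
      fin_cases j
      · simpa using ha
      · simpa using hb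
    refine ⟨(ℓ / √(8 * g)) • F ![1, 1], (ℓ / √(8 * g)) • F ![-1, -1],
      (ℓ / √(8 * g)) • F ![1, -1], (ℓ / √(8 * g)) • F ![-1, 1], ?_, ?_, ?_, ?_, ?_, ?_, ?_, ?_, ?_⟩
    · exact hcol _ _ (Or.inr rfl) (Or.inr rfl)
    · exact (hcol _ _ (Or.inl rfl) (Or.inr rfl)).symm.trans
        (hcol _ _ (Or.inr rfl) (Or.inl rfl))
    · exact hcol _ _ (Or.inl rfl) (Or.inr rfl)
    all_goals
      rw [hsqd]
      simp only [Matrix.cons_val]
      ring
  · obtain ⟨ι, hι, hc⟩ := kite_core (2 * t - 1) (by linarith) (by linarith) R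
      (t * (1 - t) * ℓ ^ 2) (by positivity)
    refine ⟨ι, hι, fun c => ?_⟩
    obtain ⟨y1, y2, y3, y4, c12, c34, c13, d12, d34, d13, d14, d23, d24⟩ := hc c
    have n1 : 1 - (2 * t - 1) ^ 2 ≠ 0 := by nlinarith
    have n2 : 1 + (2 * t - 1) ≠ 0 := by linarith
    have n3 : 1 - (2 * t - 1) ≠ 0 := by linarith
    refine ⟨y2, y1, y3, y4, c12.symm, c34, c12.symm.trans c13, ?_, ?_, ?_, ?_, ?_, ?_⟩
    · rw [sqd_comm, d12, div_eq_iff n1]; ring
    · rw [d34]; ring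
    · rw [d23, div_eq_iff n3]; ring
    · rw [d24, div_eq_iff n3]; ring
    · rw [d13, div_eq_iff n2]; ring
    · rw [d14, div_eq_iff n2]; ring

end Vale.Agent.P058
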