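import Vale.Agent.P058.Defs

/-! P058: the kite with `t = 1 - 1/√2` is not subtransitive. -/

namespace Vale.Agent.P058

open Polynomial

/-- An additive function on the reals which twists `√2`. -/
theorem exists_twist : ∃ φ : ℝ →+ ℝ, φ 1 = 1 ∧ ∀ x, φ (√2 * x) = - √2 * φ x := by
  have hirr : Irreducible (X ^ 2 - C 2 : ℚ[X]) := by
    apply X_pow_sub_C_irreducible_of_prime Nat.prime_two
    intro b hb
    have h1 : ((|b| : ℚ) : ℝ) = √2 := by
      have h2 : ((b : ℚ) : ℝ) ^ 2 = 2 := by exact_mod_cast hb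
      rw [← h2, Real.sqrt_sq_eq_abs]
      push_cast
      rfl
    exact irrational_sqrt_two ⟨|b|, h1⟩
  have hfact : Fact (Irreducible (X ^ 2 - C 2 : ℚ[X])) := ⟨hirr⟩
  let ι₁ : AdjoinRoot (X ^ 2 - C 2 : ℚ[X]) →+* ℝ :=
    AdjoinRoot.lift (algebraMap ℚ ℝ) (√2) (by simp)
  let ι₂ : AdjoinRoot (X ^ 2 - C 2 : ℚ[X]) →+* ℝ :=
    AdjoinRoot.lift (algebraMap ℚ ℝ) (-√2) (by simp)
  let hmod : Module (AdjoinRoot (X ^ 2 - C 2 : ℚ[X])) ℝ := ι₁.toModule
  have hsmul : ∀ (k : AdjoinRoot (X ^ 2 - C 2 : ℚ[X])) (x : ℝ), k • x = ι₁ k * x := fun k x => rfl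
  obtain ⟨g, hg⟩ := LinearMap.exists_leftInverse_of_injective
    (LinearMap.toSpanSingleton (AdjoinRoot (X ^ 2 - C 2 : ℚ[X])) ℝ 1) (by
      rw [LinearMap.ker_eq_bot]
      intro a b hab
      simp only [LinearMap.toSpanSingleton_apply, hsmul, mul_one] at hab
      exact ι₁.injective hab)
  refine ⟨ι₂.toAddMonoidHom.comp g.toAddMonoidHom, ?_, ?_⟩
  · have h1 : g 1 = 1 := by
      have h2 := LinearMap.congr_fun hg 1
      simpa using h2
    show ι₂ (g 1) = 1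
    rw [h1, map_one]
  · intro x
    show ι₂ (g (√2 * x)) = -√2 * ι₂ (g x)
    have h1 : √2 * x = AdjoinRoot.root (X ^ 2 - C 2 : ℚ[X]) • x := by
      rw [hsmul]
      simp only [ι₁, AdjoinRoot.lift_root]
    rw [h1, map_smul, smul_eq_mul, map_mul]
    simp only [ι₂, AdjoinRoot.lift_root]

/-- The affine relation of the kite depends only on the distances. -/
theorem kite_relation {E : Type*} [NormedAddCommGroup E] [InnerProductSpace ℝ E]
    (p : Fin 4 → E) (t : ℝ) (h12 : ‖p 1 - p 0‖ ^ 2 = 1) (h13 : ‖p 2 - p 0‖ ^ 2 = t)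
    (h14 : ‖p 3 - p 0‖ ^ 2 = t) (h23 : ‖p 1 - p 2‖ ^ 2 = 1 - t) (h24 : ‖p 1 - p 3‖ ^ 2 = 1 - t)
    (h34 : ‖p 2 - p 3‖ ^ 2 = 4 * (t * (1 - t))) :
    (2 - 2 * t) • p 0 + (2 * t) • p 1 = p 2 + p 3 := by
  set a := p 1 - p 0 with ha
  set b := p 2 - p 0 with hb
  set c := p 3 - p 0 with hc
  have hab : ‖a - b‖ ^ 2 = 1 - t := by rw [ha, hb, sub_sub_sub_cancel_right]; exact h23
  have hac : ‖a - c‖ ^ 2 = 1 - t := by rw [ha, hc, sub_sub_sub_cancel_right]; exact h24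
  have hbc : ‖b - c‖ ^ 2 = 4 * (t * (1 - t)) := by
    rw [hb, hc, sub_sub_sub_cancel_right]; exact h34
  have i1 := norm_sub_sq_real a b
  have i2 := norm_sub_sq_real a c
  have i3 := norm_sub_sq_real b c
  have key : ‖(2 * t) • a - (b + c)‖ ^ 2 = 0 := by
    rw [norm_sub_sq_real, norm_add_sq_real, norm_smul, inner_add_right, inner_smul_left,
      inner_smul_left]
    simp only [Real.norm_eq_abs, mul_pow, sq_abs, conj_trivial]
    rw [h12, h13, h14]
    rw [h12, h13] at i1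
    rw [h12, h14] at i2
    rw [h13, h14] at i3
    nlinarith
  have h0 : (2 * t) • a - (b + c) = 0 := by
    rw [← norm_eq_zero]
    exact pow_eq_zero_iff (two_ne_zero) |>.1 key
  have h1 : (2 - 2 * t) • p 0 + (2 * t) • p 1 - (p 2 + p 3) = (2 * t) • a - (b + c) := by
    rw [ha, hb, hc, sub_smul, smul_sub, two_smul ℝ (p 0)]
    abel
  rw [h0] at h1
  exact sub_eq_zero.1 h1

/-- An isometry of the ambient space preserving a finite set restricts to an isometry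
equivalence of the set. -/
theorem exists_restrict {E : Type*} [MetricSpace E] {X : Set E} (hX : X.Finite) (g : E ≃ᵢ E)
    (hg : g '' X = X) : ∃ τ : X ≃ᵢ X, ∀ x : X, ((τ x : X) : E) = g x := by
  have : Finite X := hX
  have hmap : ∀ x : X, g x ∈ X := fun x => by
    have h1 : g x ∈ g '' X := ⟨x, x.2, rfl⟩
    rwa [hg] at h1
  let e : X → X := fun x => ⟨g x, hmap x⟩
  have he : Isometry e := by
    apply Isometry.of_dist_eq
    intro x y
    exact g.isometry.dist_eq x y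
  have hb : Function.Bijective e := Finite.injective_iff_bijective.1 he.injective
  exact ⟨⟨Equiv.ofBijective e hb, he⟩, fun x => rfl⟩

theorem kite_not_subtransitive : ¬ IsSubtransitive (kite (1 - 1 / √2) 1) := by
  classical
  intro hsub
  generalize ht : (1 - 1 / √2 : ℝ) = t at hsub
  obtain ⟨n, X, hfin, htrans, f, hf, hfX⟩ := hsub
  have hsq : √2 * √2 = 2 := Real.mul_self_sqrt (by norm_num)
  have hs0 : 0 < √2 := by positivity
  have ht2 : 2 * t = 2 - √2 := by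
    rw [← ht]
    field_simp
    nlinarith
  have hs1 : 1 < √2 := by
    rw [show (1 : ℝ) = √1 by simp]
    exact Real.sqrt_lt_sqrt (by norm_num) (by norm_num)
  have hs2 : √2 < 2 := by nlinarith
  have ht0 : 0 < t := by linarith
  have ht1 : t < 1 := by linarith
  have hsr : √(t * (1 - t)) * √(t * (1 - t)) = t * (1 - t) :=
    Real.mul_self_sqrt (by nlinarith)
  -- the vertices
  let x : Fin 4 → EuclideanSpace ℝ (Fin 2) :=
    ![!₂[0, 0], !₂[1, 0], !₂[t * 1, √(t * (1 - t)) * 1], !₂[t * 1, -(√(t * (1 - t)) * 1)]]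
  have hx : ∀ i, x i ∈ kite t 1 := by
    intro i
    fin_cases i <;> simp [x, kite]
  let y : Fin 4 → X := fun i => ⟨f ⟨x i, hx i⟩, hfX _⟩
  have hy : ∀ i j, ‖((y i : X) : EuclideanSpace ℝ (Fin n)) - y j‖ = ‖x i - x j‖ := by
    intro i j
    have := hf.dist_eq ⟨x i, hx i⟩ ⟨x j, hx j⟩
    rw [dist_eq_norm, Subtype.dist_eq, dist_eq_norm] at this
    exact this
  have hdist : ‖x 1 - x 0‖ ^ 2 = 1 ∧ ‖x 2 - x 0‖ ^ 2 = t ∧ ‖x 3 - x 0‖ ^ 2 = t ∧
      ‖x 1 - x 2‖ ^ 2 = 1 - t ∧ ‖x 1 - x 3‖ ^ 2 = 1 - t ∧ ‖x 2 - x 3‖ ^ 2 = 4 * (t * (1 - t)) := by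
    simp only [x, EuclideanSpace.norm_sq_eq, Fin.sum_univ_two]
    refine ⟨?_, ?_, ?_, ?_, ?_, ?_⟩ <;> simp <;> nlinarith
  obtain ⟨d1, d2, d3, d4, d5, d6⟩ := hdist
  -- the group
  have hXf : Finite X := hfin
  have hG : Finite (X ≃ᵢ X) := Finite.of_injective (fun g => (g : X → X)) DFunLike.coe_injective
  have : Fintype (X ≃ᵢ X) := Fintype.ofFinite _
  obtain ⟨φ, hφ1, hφ2⟩ := exists_twist
  set v : EuclideanSpace ℝ (Fin n) := (y 1 : EuclideanSpace ℝ (Fin n)) - y 0 with hv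
  let a : Fin 4 → (X ≃ᵢ X) → ℝ := fun i g => inner ℝ v ((g (y i) : X) : EuclideanSpace ℝ (Fin n))
  let u : Fin 4 → (X ≃ᵢ X) → ℝ := fun i g => φ (a i g)
  have hrel : ∀ g : X ≃ᵢ X, √2 * u 0 g + u 2 g + u 3 g = (2 + √2) * u 1 g := by
    intro g
    have hg : ∀ i j, ‖((g (y i) : X) : EuclideanSpace ℝ (Fin n)) - g (y j)‖ = ‖x i - x j‖ := by
      intro i j
      rw [← hy, ← dist_eq_norm, ← dist_eq_norm]
      exact g.isometry.dist_eq (y i) (y j)
    have h1 := kite_relation (fun i => ((g (y i) : X) : EuclideanSpace ℝ (Fin n))) t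
      (by rw [hg]; exact d1) (by rw [hg]; exact d2) (by rw [hg]; exact d3) (by rw [hg]; exact d4)
      (by rw [hg]; exact d5) (by rw [hg]; exact d6)
    have h2 : (2 - 2 * t) * a 0 g + (2 * t) * a 1 g = a 2 g + a 3 g := by
      have h3 := congrArg (fun z => inner ℝ v z) h1
      simp only [inner_add_right, inner_smul_right] at h3
      exact h3
    rw [ht2] at h2
    have h4 : √2 * a 0 g + (2 * a 1 g - √2 * a 1 g) = a 2 g + a 3 g := by linarith
    have h5 := congrArg φ h4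
    rw [map_add, map_add, map_sub, hφ2, hφ2, two_mul, map_add] at h5
    show √2 * φ (a 0 g) + φ (a 2 g) + φ (a 3 g) = (2 + √2) * φ (a 1 g)
    linarith
  have hN : ∀ i, ∑ g, u i g ^ 2 = ∑ g, u 0 g ^ 2 := by
    intro i
    obtain ⟨g₀, hg₀, hg₀'⟩ := htrans (y 0) (y 0).2 (y i) (y i).2
    obtain ⟨τ, hτ⟩ := exists_restrict hfin g₀ hg₀
    have hτ2 : τ (y 0) = y i := by
      apply Subtype.ext
      rw [hτ]
      exact hg₀'
    refine Fintype.sum_equiv (Equiv.mulRight τ) _ _ (fun g => ?_)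
    have : u i g = u 0 (g * τ) := by
      show φ (inner ℝ v ((g (y i) : X) : EuclideanSpace ℝ (Fin n))) =
        φ (inner ℝ v (((g * τ) (y 0) : X) : EuclideanSpace ℝ (Fin n)))
      rw [IsometryEquiv.mul_apply, hτ2]
    rw [this]
    rfl
  have hsum : ∑ g, (√2 * (u 0 g - u 1 g) ^ 2 + (u 2 g - u 1 g) ^ 2 + (u 3 g - u 1 g) ^ 2) = 0 := by
    have h1 : ∀ g, √2 * (u 0 g - u 1 g) ^ 2 + (u 2 g - u 1 g) ^ 2 + (u 3 g - u 1 g) ^ 2 =
        √2 * u 0 g ^ 2 + u 2 g ^ 2 + u 3 g ^ 2 - (2 + √2) * u 1 g ^ 2 := by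
      intro g
      have := hrel g
      linear_combination (-2 * u 1 g) * this
    rw [Finset.sum_congr rfl (fun g _ => h1 g), Finset.sum_sub_distrib, Finset.sum_add_distrib,
      Finset.sum_add_distrib, ← Finset.mul_sum, ← Finset.mul_sum, hN 1, hN 2, hN 3]
    ring
  have hz := (Finset.sum_eq_zero_iff_of_nonneg (fun g _ => by positivity)).1 hsum 1
    (Finset.mem_univ _)
  have h0 : u 0 1 = u 1 1 := by
    have h2 : √2 * (u 0 1 - u 1 1) ^ 2 ≤ 0 := by
      have := sq_nonneg (u 2 1 - u 1 1)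
      have := sq_nonneg (u 3 1 - u 1 1)
      linarith
    have h3 : (u 0 1 - u 1 1) ^ 2 ≤ 0 := by
      by_contra hcon
      push Not at hcon
      have := mul_pos hs0 hcon
      linarith
    have h4 : u 0 1 - u 1 1 = 0 := by
      have := le_antisymm h3 (sq_nonneg _)
      exact pow_eq_zero_iff (two_ne_zero) |>.1 this
    linarith
  have h5 : a 1 1 - a 0 1 = 1 := by
    show inner ℝ v ((y 1 : X) : EuclideanSpace ℝ (Fin n)) -
      inner ℝ v ((y 0 : X) : EuclideanSpace ℝ (Fin n)) = 1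
    rw [← inner_sub_right, ← hv, real_inner_self_eq_norm_sq, hv, hy]
    exact d1
  have h6 : φ (a 1 1 - a 0 1) = 0 := by
    rw [map_sub]
    show u 1 1 - u 0 1 = 0
    rw [h0, sub_self]
  rw [h5, hφ1] at h6
  exact one_ne_zero h6

end Vale.Agent.P058
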