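import Vale.Agent.P058.Cells

/-! The words `W 0, ..., W (R+1)` and their pairwise comparison. -/

namespace Vale.Agent.P058

open Cell

/-- weights of the families -/
noncomputable def rho (a : ℝ) (R k : ℕ) : ℝ :=
  if k < R then a / (1 - a) else 1 - R * (a / (1 - a))

/-- the full word -/
noncomputable def fullW (α a P : ℝ) (R N m : ℕ) : List ℝ :=
  (List.range (R + 1)).flatMap (fun k => famW α (√(rho a R k)) N m) ++
    (List.replicate m (α * P) ++ List.replicate (R + 1 - m) P)

/-- the cells comparing `fullW i` with `fullW (i + (m+1))` -/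
noncomputable def fullZ (α a P : ℝ) (R N i m : ℕ) : List Cell :=
  (List.range (R + 1)).flatMap (fun k => if m ≤ k then famBig α (√(rho a R k)) N i m
      else famSmall α (√(rho a R k)) N i m) ++
    (List.replicate i (fix (α * P)) ++ List.replicate (m + 1) (con P) ++
      List.replicate (R + 1 - (i + (m + 1))) (fix P))

theorem fullZ_y (α a P : ℝ) (R N i m : ℕ) :
    (fullZ α a P R N i m).map (y α) = fullW α a P R N (i + (m + 1)) := by
  rw [fullZ, fullW, List.map_append, List.map_flatMap]
  congr 1
  · congr 1
    funext k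
    split_ifs
    · exact famBig_y _ _ _ _ _
    · exact famSmall_y _ _ _ _ _
  · rw [List.map_append, List.map_append, List.map_replicate, List.map_replicate,
      List.map_replicate]
    simp only [y]
    rw [← List.replicate_add]

theorem fullZ_x (α a P : ℝ) (R N i m : ℕ) (hα : α ≠ 0) (hP : P ≠ 0)
    (hρ : ∀ k, 0 < rho a R k) (him : i + (m + 1) ≤ R + 1) :
    ((fullZ α a P R N i m).map x).filter (fun z => decide (z ≠ 0)) = fullW α a P R N i := by
  rw [fullZ, fullW, List.map_append, List.map_flatMap, List.filter_append, List.filter_flatMap]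
  congr 1
  · congr 1
    funext k
    have hs : √(rho a R k) ≠ 0 := (Real.sqrt_pos.2 (hρ k)).ne'
    show List.filter _ (List.map x (if m ≤ k then _ else _)) = _
    split_ifs
    · exact famBig_x _ _ _ _ _ hs hα
    · exact famSmall_x _ _ _ _ _ hs hα
  · rw [List.map_append, List.map_append, List.map_replicate, List.map_replicate,
      List.map_replicate]
    simp only [x]
    rw [List.append_assoc, ← List.replicate_add, List.filter_append, List.filter_replicate_of_pos,
      List.filter_replicate_of_pos]
    · congr 2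
      omega
    · simpa using hP
    · simpa using ⟨hα, hP⟩

theorem sum_flatMap_range (g : ℕ → List Cell) (f : Cell → ℝ) (r : ℕ) :
    (((List.range r).flatMap g).map f).sum = ∑ k ∈ Finset.range r, ((g k).map f).sum := by
  induction r with
  | zero => simp
  | succ r ih =>
    rw [List.range_succ, List.flatMap_append, List.map_append, List.sum_append, ih,
      Finset.sum_range_succ]
    simp

theorem sum_ite_range (c : ℝ) (m R : ℕ) (h : m ≤ R) :
    ∑ k ∈ Finset.range R, (if m ≤ k then c else 0) = (R - m) * c := by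
  induction R, h using Nat.le_induction with
  | base =>
    rw [Finset.sum_eq_zero]
    · ring
    · intro k hk
      rw [if_neg]
      have := Finset.mem_range.1 hk
      omega
  | succ n hmn ih =>
    rw [Finset.sum_range_succ, ih, if_pos hmn]
    push_cast
    ring

theorem sum_rho_ite (a : ℝ) (m R : ℕ) (h : m ≤ R) :
    ∑ k ∈ Finset.range (R + 1), (if m ≤ k then rho a R k else 0) = 1 - m * (a / (1 - a)) := by
  rw [Finset.sum_range_succ, if_pos h]
  have e : ∑ k ∈ Finset.range R, (if m ≤ k then rho a R k else 0) =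
      ∑ k ∈ Finset.range R, (if m ≤ k then a / (1 - a) else 0) := by
    refine Finset.sum_congr rfl fun k hk => ?_
    rw [rho, if_pos (Finset.mem_range.1 hk)]
  rw [e, sum_ite_range _ _ _ h, rho, if_neg (lt_irrefl R)]
  ring

theorem sum_rho (a : ℝ) (R : ℕ) : ∑ k ∈ Finset.range (R + 1), rho a R k = 1 := by
  have := sum_rho_ite a 0 R (Nat.zero_le _)
  simpa using this

theorem fullZ_S (α a P : ℝ) (R N i m : ℕ) (ha : a = α ^ (2 * N)) (ha1 : a ≠ 1)
    (hρ : ∀ k, 0 < rho a R k) (hm : m ≤ R) :
    ((fullZ α a P R N i m).map S).sum = 1 := by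
  have h1a : (1 - a) ≠ 0 := sub_ne_zero.2 ha1.symm
  rw [fullZ, List.map_append, List.sum_append, sum_flatMap_range]
  have e1 : ∑ k ∈ Finset.range (R + 1), ((List.map S (if m ≤ k then famBig α (√(rho a R k)) N i m
      else famSmall α (√(rho a R k)) N i m)).sum) =
      ∑ k ∈ Finset.range (R + 1), ((m + 1) * a * rho a R k +
        (1 - a) * (if m ≤ k then rho a R k else 0)) := by
    refine Finset.sum_congr rfl fun k _ => ?_
    have hs : √(rho a R k) ^ 2 = rho a R k := Real.sq_sqrt (hρ k).le
    split_ifs with h
    · rw [famBig_S, hs, ← ha]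
      ring
    · rw [famSmall_S, hs, ← ha]
      ring
  rw [e1, Finset.sum_add_distrib, ← Finset.mul_sum, ← Finset.mul_sum, sum_rho, sum_rho_ite _ _ _ hm]
  simp only [List.map_append, List.map_replicate, List.sum_append, List.sum_replicate, S,
    nsmul_eq_mul]
  field_simp
  ring

theorem fullZ_T (α a P : ℝ) (R N i m : ℕ) (ha : a = α ^ (2 * N)) (ha1 : a ≠ 1)
    (hP : P ^ 2 * (1 - α ^ 2) = a)
    (hρ : ∀ k, 0 < rho a R k) (hm : m ≤ R) :
    ((fullZ α a P R N i m).map T).sum * (1 - α ^ 2) = 1 := by
  have h1a : (1 - a) ≠ 0 := sub_ne_zero.2 ha1.symm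
  rw [fullZ, List.map_append, List.sum_append, sum_flatMap_range, add_mul, Finset.sum_mul]
  have e1 : ∑ k ∈ Finset.range (R + 1), ((List.map T (if m ≤ k then famBig α (√(rho a R k)) N i m
      else famSmall α (√(rho a R k)) N i m)).sum) * (1 - α ^ 2) =
      ∑ k ∈ Finset.range (R + 1), ((1 - a) * (if m ≤ k then rho a R k else 0)) := by
    refine Finset.sum_congr rfl fun k _ => ?_
    have hs : √(rho a R k) ^ 2 = rho a R k := Real.sq_sqrt (hρ k).le
    split_ifs with h
    · rw [famBig_T, hs, ← ha]
      ring
    · rw [famSmall_T]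
      ring
  rw [e1, ← Finset.mul_sum, sum_rho_ite _ _ _ hm]
  simp only [List.map_append, List.map_replicate, List.sum_append, List.sum_replicate, T,
    nsmul_eq_mul, mul_zero, zero_add, add_zero]
  rw [mul_assoc, hP]
  push_cast
  field_simp
  ring

end Vale.Agent.P058
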